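import Vale.Agent.P129.Main
import Vale.Agent.P129.BelowBounding

/-!
Separable quotients for Banach spaces of density smaller than non(M) or smaller than cov(N).
-/

namespace Vale.Agent.Results.P129.DensityBelowNonMeagre

open Vale.Agent.P129

universe u v

theorem result {𝕜 : Type v} [RCLike 𝕜] {X : Type u} [NormedAddCommGroup X] [NormedSpace 𝕜 X]
    [CompleteSpace X] (hX : ¬ FiniteDimensional 𝕜 X) (D : Set X) (hD : Dense D)
    (hcard : Cardinal.lift.{0} (Cardinal.mk D) < Cardinal.lift.{u} nonMeagre ∨
      Cardinal.lift.{0} (Cardinal.mk D) < Cardinal.lift.{u} covNull) :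
    ∃ M : Submodule 𝕜 X, IsClosed (M : Set X) ∧ TopologicalSpace.SeparableSpace (X ⧸ M) ∧
      ¬ FiniteDimensional 𝕜 (X ⧸ M) := by
  rcases hcard with h | h
  · exact separable_quotient_of_dense_lt_nonMeagre' hX D hD h
  · exact separable_quotient_of_dense_lt_covNull hX D hD h

end Vale.Agent.Results.P129.DensityBelowNonMeagre
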